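import Vale.Agent.P318.S.Defs

/-!
# Codeword-level violations of the tests T1 - T4

`Y = Fin 3 → V`, directions `dir3 r i = fun k => r (i k)`; a codeword has the component functions
`s y : Fin 5 ⊕ K → F`: `inl 0` is the component 1, `inl 1, inl 2, inl 3` are `f₁, f₂, f₃`,
`inl 4` is `H` and `inr k` the certificate `h_k` of `Z_k`.
-/

namespace Vale.Agent.P318.H764

open Finset Vale.Agent.P318.S
open scoped BigOperators

section

variable {F V ι K : Type*} [Field F] [Fintype F] [AddCommGroup V] [Module F V] [Fintype V]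
  [Fintype K]

/-- The directions in the three blocks. -/
def dir3 (r : ι → V) (i : Fin 3 → ι) : Fin 3 → V := fun k => r (i k)

/-- Block `k` of `x` and the other blocks of `x'`. -/
def mix {A : Type*} (k : Fin 3) (x x' : Fin 3 → A) : Fin 3 → A := fun l => if l = k then x l else x' l

/-- The component `f_k`. -/
def fc (k : Fin 3) : Fin 5 ⊕ K := Sum.inl (k.succ.castSucc)

/-- Ideal violation of T4 (required parity `φ γ`). -/
noncomputable def v4 (φ : F →+ ZMod 2) (s : (Fin 3 → V) → Fin 5 ⊕ K → F) : ℝ :=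
  𝔼 y : Fin 3 → V, 𝔼 γ : F, ind (φ (γ * s y (Sum.inl 0)) + φ γ)

/-- Ideal violation of T3 for the block `k`. -/
noncomputable def v3 (φ : F →+ ZMod 2) (s : (Fin 3 → V) → Fin 5 ⊕ K → F) (k : Fin 3) : ℝ :=
  𝔼 y : Fin 3 → V, 𝔼 y' : Fin 3 → V, 𝔼 γ : F,
    ind (φ (γ * s y (fc k)) + φ (γ * s (mix k y y') (fc k)))

/-- Ideal violation of T1. -/
noncomputable def v1 (φ : F →+ ZMod 2) (s : (Fin 3 → V) → Fin 5 ⊕ K → F) : ℝ :=
  𝔼 y : Fin 3 → V, 𝔼 a : Fin 2 → F, 𝔼 b : Fin 2 → F,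
    ind (φ (a 0 * b 0 * s y (Sum.inl 0) + a 1 * b 0 * s y (Sum.inl 1) +
      a 0 * b 1 * s y (Sum.inl 2) + a 1 * b 1 * s y (Sum.inl 4)))

/-- Ideal violation of T2; `ψ = ∑ δ_a(y₁) δ_b(y₂) δ_c(y₃)`, `ψ' = ∑ β δ_a(y₁) δ_b(y₂) δ_c(y₃)`. -/
noncomputable def v2 (φ : F →+ ZMod 2) (ψ ψ' : (Fin 3 → V) → F) (Z : K → (Fin 3 → V) → F)
    (s : (Fin 3 → V) → Fin 5 ⊕ K → F) : ℝ :=
  𝔼 y : Fin 3 → V, 𝔼 γ : F,
    ind (φ (γ * (ψ y * (s y (Sum.inl 4) + s y (Sum.inl 3)) + ψ' y * s y (Sum.inl 0) +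
      ∑ k, Z k y * s y (Sum.inr k))))

end

end Vale.Agent.P318.H764
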