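import Vale.Agent.P318.S.Defs
import Vale.Agent.P318.H764.SoundDefs

/-!
# The family of pairs of directions with a common block
-/

namespace Vale.Agent.P318.H764

open Finset Vale.Agent.P318.S
open scoped BigOperators

section char

variable {Y Y' ι ι' : Type*} [AddCommGroup Y] [AddCommGroup Y'] [Fintype ι] [Fintype ι']

theorem abs_sgn_le (a : ZMod 2) : |sgn a| ≤ 1 := by
  unfold sgn
  split_ifs <;> simp

theorem sgn_add (a b : ZMod 2) : sgn (a + b) = sgn a * sgn b := by
  revert a b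
  unfold sgn
  intro a b
  have ha : a = 0 ∨ a = 1 := by revert a; decide
  have hb : b = 0 ∨ b = 1 := by revert b; decide
  rcases ha with rfl | rfl <;> rcases hb with rfl | rfl <;>
    simp [show (1 : ZMod 2) + 1 = 0 from by decide]

theorem abs_expect_sgn_le (f : ι → ZMod 2) : |𝔼 i : ι, sgn (f i)| ≤ 1 := by
  refine (Finset.abs_expect_le _ _).trans ?_
  rcases isEmpty_or_nonempty ι with h | h
  · simp
  · exact Finset.expect_le (Finset.univ_nonempty) fun i _ => abs_sgn_le _

theorem CharBd.prod {r : ι → Y} {r' : ι' → Y'} {lam : ℝ} (h : CharBd r lam)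
    (h' : CharBd r' lam) : CharBd (fun p : ι × ι' => (r p.1, r' p.2)) lam := by
  intro f hf
  let f₁ : Y →+ ZMod 2 := f.comp (AddMonoidHom.inl Y Y')
  let f₂ : Y' →+ ZMod 2 := f.comp (AddMonoidHom.inr Y Y')
  have hsplit : ∀ p : ι × ι', f (r p.1, r' p.2) = f₁ (r p.1) + f₂ (r' p.2) := by
    intro p
    simp only [f₁, f₂, AddMonoidHom.comp_apply, AddMonoidHom.inl_apply, AddMonoidHom.inr_apply]
    rw [← map_add]
    simp
  have hE : 𝔼 p : ι × ι', sgn (f (r p.1, r' p.2)) =
      (𝔼 i : ι, sgn (f₁ (r i))) * 𝔼 j : ι', sgn (f₂ (r' j)) := by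
    simp_rw [hsplit, sgn_add]
    rw [← Finset.univ_product_univ, Finset.expect_product, Finset.expect_mul]
    refine Finset.expect_congr rfl fun i _ => ?_
    rw [Finset.mul_expect]
  rw [hE, abs_mul]
  by_cases h1 : f₁ = 0
  · have h2 : f₂ ≠ 0 := by
      intro h2
      refine hf (AddMonoidHom.ext fun x => ?_)
      have : f x = f₁ x.1 + f₂ x.2 := by
        simp only [f₁, f₂, AddMonoidHom.comp_apply, AddMonoidHom.inl_apply,
          AddMonoidHom.inr_apply]
        rw [← map_add]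
        simp
      rw [this, h1, h2]
      simp
    have h3 := h' f₂ h2
    have h4 := abs_expect_sgn_le fun i => f₁ (r i)
    calc |𝔼 i : ι, sgn (f₁ (r i))| * |𝔼 j : ι', sgn (f₂ (r' j))|
        ≤ 1 * |𝔼 j : ι', sgn (f₂ (r' j))| := mul_le_mul_of_nonneg_right h4 (abs_nonneg _)
      _ ≤ lam := by rw [one_mul]; exact h3
  · have h3 := h f₁ h1
    have h4 := abs_expect_sgn_le fun i => f₂ (r' i)
    calc |𝔼 i : ι, sgn (f₁ (r i))| * |𝔼 j : ι', sgn (f₂ (r' j))|
        ≤ |𝔼 i : ι, sgn (f₁ (r i))| * 1 := mul_le_mul_of_nonneg_left h4 (abs_nonneg _)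
      _ ≤ lam := by rw [mul_one]; exact h3

end char

section mixing

variable {A : Type*}

/-- Exchange of the blocks other than `k`. -/
def mixEquiv (A : Type*) (k : Fin 3) : (Fin 3 → A) × (Fin 3 → A) ≃ (Fin 3 → A) × (Fin 3 → A) where
  toFun p := (mix k p.1 p.2, mix k p.2 p.1)
  invFun p := (mix k p.1 p.2, mix k p.2 p.1)
  left_inv p := by
    ext l <;> simp only [mix] <;> split_ifs <;> rfl
  right_inv p := by
    ext l <;> simp only [mix] <;> split_ifs <;> rfl

theorem card_pairs [Fintype A] [DecidableEq A] (k : Fin 3) (I : Finset (Fin 3 → A))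
    {κ : ℝ} (hκ : (1 - κ) * Fintype.card (Fin 3 → A) ≤ #I) :
    (1 - 2 * κ) * Fintype.card ((Fin 3 → A) × (Fin 3 → A)) ≤
      #((Finset.univ : Finset ((Fin 3 → A) × (Fin 3 → A))).filter fun p =>
        p.1 ∈ I ∧ mix k p.1 p.2 ∈ I) := by
  classical
  set U : Finset ((Fin 3 → A) × (Fin 3 → A)) := Finset.univ with hU
  set n : ℝ := (Fintype.card (Fin 3 → A) : ℝ) with hn
  have h0 : (0 : ℝ) ≤ n := by positivity
  have hcard : (Fintype.card ((Fin 3 → A) × (Fin 3 → A)) : ℝ) = n * n := by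
    rw [Fintype.card_prod]; push_cast; rfl
  have hB1 : (#(U.filter fun p => p.1 ∉ I) : ℝ) ≤ κ * (n * n) := by
    have h1 : U.filter (fun p => p.1 ∉ I) = Iᶜ ×ˢ (Finset.univ : Finset (Fin 3 → A)) := by
      ext p; simp [hU]
    rw [h1, Finset.card_product, Finset.card_compl, Finset.card_univ, Nat.cast_mul,
      Nat.cast_sub (Finset.card_le_univ I)]
    have h2 : n - #I ≤ κ * n := by linarith
    calc (n - (#I : ℝ)) * n ≤ (κ * n) * n := mul_le_mul_of_nonneg_right h2 h0
      _ = κ * (n * n) := by ring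
  have hB2 : (#(U.filter fun p => mix k p.1 p.2 ∉ I) : ℝ) ≤ κ * (n * n) := by
    refine le_trans (le_of_eq ?_) hB1
    congr 1
    refine Finset.card_equiv (mixEquiv A k) fun p => ?_
    simp [hU, mixEquiv]
  have hsub : U \ (U.filter fun p => p.1 ∈ I ∧ mix k p.1 p.2 ∈ I) ⊆
      (U.filter fun p => p.1 ∉ I) ∪ (U.filter fun p => mix k p.1 p.2 ∉ I) := by
    intro p hp
    simp only [Finset.mem_sdiff, Finset.mem_filter, Finset.mem_union] at hp ⊢
    tauto
  have h3 := Finset.card_le_card hsub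
  have h4 := h3.trans (Finset.card_union_le _ _)
  rw [Finset.card_sdiff_of_subset (Finset.filter_subset _ _)] at h4
  have h5 : #(U.filter fun p => p.1 ∈ I ∧ mix k p.1 p.2 ∈ I) ≤ #U :=
    Finset.card_le_card (Finset.filter_subset _ _)
  have h6 : (#U : ℝ) = n * n := by
    rw [hU, Finset.card_univ, hcard]
  have h7 : ((#U - #(U.filter fun p => p.1 ∈ I ∧ mix k p.1 p.2 ∈ I) : ℕ) : ℝ) ≤
      #(U.filter fun p => p.1 ∉ I) + #(U.filter fun p => mix k p.1 p.2 ∉ I) := by
    exact_mod_cast h4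
  rw [Nat.cast_sub h5, h6] at h7
  rw [hcard]
  linarith

end mixing

end Vale.Agent.P318.H764
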