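import Vale.Agent.P318.H764.Sound
import Vale.Agent.P318.H764.Pairs

/-!
# The gap on codeword level
-/

namespace Vale.Agent.P318.H764

open Finset Vale.Agent.P318.S
open scoped BigOperators

section

variable {F V ι K : Type*} [Field F] [Fintype F] [DecidableEq F] [CharP F 2] [AddCommGroup V]
  [Module F V] [Fintype V] [DecidableEq V] [Fintype ι] [DecidableEq ι] [Nonempty ι] [Fintype K]

omit [DecidableEq F] [CharP F 2] [Fintype F] [Fintype V] [DecidableEq V] [Fintype ι]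
  [DecidableEq ι] [Nonempty ι] in
theorem mix_line (r : ι → V) (k : Fin 3) (y y' : Fin 3 → V) (i i' : Fin 3 → ι) (u : F) :
    mix k (y + u • dir3 r i) (y' + u • dir3 r i') = mix k y y' + u • dir3 r (mix k i i') := by
  funext l
  simp only [mix, dir3, Pi.add_apply, Pi.smul_apply]
  split_ifs <;> rfl

/-- T3: if `f_k` depends on another block then it is seen. -/
theorem v3_ge (φ : F →+ ZMod 2) (hφ : φ ≠ 0) {q d : ℕ} (hq : Fintype.card F = q) (r : ι → V)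
    {lam κ : ℝ} (h0 : 0 ≤ lam) (hb : CharBd (dir3 r) lam) (I : Finset (Fin 3 → ι))
    (hκ : (1 - κ) * Fintype.card (Fin 3 → ι) ≤ #I) (hκ2 : 2 * κ < 1)
    (s : (Fin 3 → V) → Fin 5 ⊕ K → F) (k : Fin 3)
    (hs : ∀ i ∈ I, ∀ y, Low d fun u : F => s (y + u • dir3 r i) (fc k))
    (hne : ∃ y y' : Fin 3 → V, s y (fc k) + s (mix k y y') (fc k) ≠ 0) :
    (1 / 2) * ((1 - (d : ℝ) / (q - 1)) * (1 - 2 * κ) - lam) ≤ v3 φ s k := by
  rw [v3_eq φ hφ]
  refine mul_le_mul_of_nonneg_left ?_ (by norm_num)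
  have hcard := card_pairs k I hκ
  have hpos : (0 : ℝ) < Fintype.card ((Fin 3 → ι) × (Fin 3 → ι)) := by
    exact_mod_cast Fintype.card_pos
  refine low_dist (F := F) (Y := (Fin 3 → V) × (Fin 3 → V)) (ι := (Fin 3 → ι) × (Fin 3 → ι)) hq
    (fun p => (dir3 r p.1, dir3 r p.2))
    ((Finset.univ : Finset ((Fin 3 → ι) × (Fin 3 → ι))).filter fun p =>
        p.1 ∈ I ∧ mix k p.1 p.2 ∈ I) ?_ h0 (CharBd.prod hb hb) hcard hκ2
    (fun p => s p.1 (fc k) + s (mix k p.1 p.2) (fc k)) ?_ ?_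
  · rw [← Finset.card_pos]
    have : (0 : ℝ) < #((Finset.univ : Finset ((Fin 3 → ι) × (Fin 3 → ι))).filter fun p =>
        p.1 ∈ I ∧ mix k p.1 p.2 ∈ I) :=
      lt_of_lt_of_le (mul_pos (by linarith) hpos) hcard
    exact_mod_cast this
  · rintro ⟨i, i'⟩ hi ⟨y, y'⟩
    simp only [Finset.mem_filter, Finset.mem_univ, true_and] at hi
    have h1 := hs i hi.1 y
    have h2 := hs (mix k i i') hi.2 (mix k y y')
    have h3 := Low.add h1 h2
    have h4 : (fun u : F => s ((y, y') + u • (dir3 r i, dir3 r i')).1 (fc k) +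
        s (mix k ((y, y') + u • (dir3 r i, dir3 r i')).1
          ((y, y') + u • (dir3 r i, dir3 r i')).2) (fc k)) =
        fun u : F => s (y + u • dir3 r i) (fc k) +
          s (mix k y y' + u • dir3 r (mix k i i')) (fc k) := by
      funext u
      rw [← mix_line]
      rfl
    exact h4 ▸ h3
  · obtain ⟨y, y', h⟩ := hne
    exact fun h0 => h (congrFun h0 (y, y'))

/-- **Codeword-level soundness.** -/
theorem sound_or (φ : F →+ ZMod 2) (hφ : φ ≠ 0) {q : ℕ} (hq : Fintype.card F = q) (r : ι → V)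
    {lam κ : ℝ} (h0 : 0 ≤ lam) (hb : CharBd (dir3 r) lam) (I : Finset (Fin 3 → ι))
    (hκ : (1 - κ) * Fintype.card (Fin 3 → ι) ≤ #I) (hκ2 : 2 * κ < 1) {d e m : ℕ}
    (hd : 2 * d ≤ m) (he : e + d ≤ m) (hm : m + 1 ≤ q)
    (s : (Fin 3 → V) → Fin 5 ⊕ K → F)
    (hs : ∀ i ∈ I, ∀ y, Low d fun u : F => s (y + u • dir3 r i))
    (ψ ψ' : (Fin 3 → V) → F) (Z : K → (Fin 3 → V) → F)
    (hψ : ∀ i ∈ I, ∀ y, Low e fun u : F => ψ (y + u • dir3 r i))
    (hψ' : ∀ i ∈ I, ∀ y, Low e fun u : F => ψ' (y + u • dir3 r i))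
    (hZ : ∀ k, ∀ i ∈ I, ∀ y, Low e fun u : F => Z k (y + u • dir3 r i))
    (hun : ∀ g : Fin 3 → V → F, ∃ y : Fin 3 → V, ψ y = 1 ∧ (∀ k, Z k y = 0) ∧
      g 0 (y 0) * g 1 (y 1) + g 2 (y 2) ≠ ψ' y) :
    ((1 - (m : ℝ) / (q - 1)) * (1 - 2 * κ) - lam) / 2 ≤ v4 φ s ∨
    ((1 - (m : ℝ) / (q - 1)) * (1 - 2 * κ) - lam) / 2 ≤ v2 φ ψ ψ' Z s ∨
    (∃ k, ((1 - (m : ℝ) / (q - 1)) * (1 - 2 * κ) - lam) / 2 ≤ v3 φ s k) ∨
    (1 - 1 / (q : ℝ)) / 2 + (1 / (q : ℝ) - 1 / (q : ℝ) ^ 2) / 2 *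
      ((1 - (m : ℝ) / (q - 1)) * (1 - 2 * κ) - lam) ≤ v1 φ s := by
  classical
  have hq2 : 2 ≤ q := by
    rw [← hq]; exact Fintype.one_lt_card
  have hqR : (2 : ℝ) ≤ q := by exact_mod_cast hq2
  have hcard : (0 : ℝ) < Fintype.card (Fin 3 → ι) := by exact_mod_cast Fintype.card_pos
  have hκ0 : 0 ≤ κ := by
    have h5 : (#I : ℝ) ≤ Fintype.card (Fin 3 → ι) := by exact_mod_cast Finset.card_le_univ I
    by_contra hneg
    push Not at hneg
    nlinarith
  have hI : I.Nonempty := by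
    rw [← Finset.card_pos]
    have : (0 : ℝ) < #I := lt_of_lt_of_le (mul_pos (by linarith) hcard) hκ
    exact_mod_cast this
  set A : ℝ := (1 - (m : ℝ) / (q - 1)) * (1 - 2 * κ) - lam with hA
  have hmq : (m : ℝ) / (q - 1) ≤ 1 := by
    rw [div_le_one (by linarith)]
    have : ((m + 1 : ℕ) : ℝ) ≤ q := by exact_mod_cast hm
    push_cast at this
    linarith
  have hAd : ∀ {d' : ℕ}, d' ≤ m → ∀ {κ' : ℝ}, κ' ≤ 2 * κ → κ' ≤ 1 →
      A ≤ (1 - (d' : ℝ) / (q - 1)) * (1 - κ') - lam := by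
    intro d' hd' κ' hκ' hκ1
    have h5 : (d' : ℝ) / (q - 1) ≤ (m : ℝ) / (q - 1) := by
      apply div_le_div_of_nonneg_right _ (by linarith)
      exact_mod_cast hd'
    have h6 : (1 - (m : ℝ) / (q - 1)) * (1 - 2 * κ) ≤ (1 - (d' : ℝ) / (q - 1)) * (1 - κ') :=
      mul_le_mul (by linarith) (by linarith) (by linarith) (by linarith)
    rw [hA]; linarith
  -- distance for functions of degree `m`
  have hdist : ∀ f : (Fin 3 → V) → F, (∀ i ∈ I, ∀ y, Low m fun u : F => f (y + u • dir3 r i)) →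
      f ≠ 0 → A ≤ 𝔼 y, if f y = 0 then (0 : ℝ) else 1 := fun f hf hne =>
    (hAd le_rfl (κ' := κ) (by linarith) (by linarith)).trans
      (low_dist hq (dir3 r) I hI h0 hb hκ (by linarith) f hf hne)
  have hqF : (Fintype.card F : ℝ) = q := by exact_mod_cast congrArg (Nat.cast (R := ℝ)) hq
  set base : ℝ := (1 - 1 / (q : ℝ)) / 2 with hbase
  by_contra hcon
  push Not at hcon
  obtain ⟨hc4, hc2, hc3, hc1⟩ := hcon
  have hsum : ∀ i ∈ I, ∀ y, ∀ j, Low d fun u : F => s (y + u • dir3 r i) j :=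
    fun i hi y j => Low.comp (hs i hi y) j
  -- component 1
  have hone : ∀ y, s y (Sum.inl 0) = 1 := by
    by_contra hne
    push Not at hne
    obtain ⟨y0, hy0⟩ := hne
    have h5 : A ≤ 𝔼 y, if s y (Sum.inl 0) + 1 = 0 then (0 : ℝ) else 1 := by
      refine hdist (fun y => s y (Sum.inl 0) + 1) (fun i hi y => ?_) ?_
      · exact Low.add (Low.mono (hsum i hi y _) (by omega)) (Low.const m 1)
      · intro h0
        have := congrFun h0 y0
        simp only [Pi.zero_apply] at this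
        rw [← CharTwo.sub_eq_add, sub_eq_zero] at this
        exact hy0 this
    have h6 : A / 2 ≤ v4 φ s := by rw [v4_eq φ hφ]; linarith
    linarith
  have hv1 := v1_eq φ hφ s hone
  rw [hqF, ← hbase] at hv1
  set pH : ℝ := 𝔼 y : Fin 3 → V, (if s y (Sum.inl 4) + s y (Sum.inl 1) * s y (Sum.inl 2) = 0
          then (0 : ℝ) else 1) with hpH
  have hcc : 0 ≤ (1 / (q : ℝ) - 1 / (q : ℝ) ^ 2) / 2 := by
    have : 1 / (q : ℝ) ^ 2 ≤ 1 / (q : ℝ) := by
      apply one_div_le_one_div_of_le (by linarith)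
      nlinarith
    linarith
  -- H = f1 f2
  have hH : ∀ y, s y (Sum.inl 4) = s y (Sum.inl 1) * s y (Sum.inl 2) := by
    by_contra hne
    push Not at hne
    obtain ⟨y0, hy0⟩ := hne
    have h5 : A ≤ pH := by
      refine hdist (fun y => s y (Sum.inl 4) + s y (Sum.inl 1) * s y (Sum.inl 2))
        (fun i hi y => ?_) ?_
      · exact Low.add (Low.mono (hsum i hi y _) (by omega))
          (Low.mono (Low.mul (hsum i hi y _) (hsum i hi y _)) (by omega))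
      · intro h0
        have := congrFun h0 y0
        simp only [Pi.zero_apply] at this
        rw [← CharTwo.sub_eq_add, sub_eq_zero] at this
        exact hy0 this
    have h6 := mul_le_mul_of_nonneg_left h5 hcc
    linarith
  -- T3
  have hfk : ∀ k : Fin 3, ∀ y y' : Fin 3 → V, s y (fc k) + s (mix k y y') (fc k) = 0 := by
    intro k
    by_contra hne
    push Not at hne
    have h5 := v3_ge φ hφ hq r h0 hb I hκ hκ2 s k (fun i hi y => hsum i hi y _) hne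
    have h6 : A ≤ (1 - (d : ℝ) / (q - 1)) * (1 - 2 * κ) - lam :=
      hAd (by omega) le_rfl hκ2.le
    have h7 : A / 2 ≤ v3 φ s k := by linarith
    have h9 := hc3 k
    linarith
  -- T2
  have hG : ∀ y, ψ y * (s y (Sum.inl 4) + s y (Sum.inl 3)) +
      ψ' y * s y (Sum.inl 0) + ∑ k, Z k y * s y (Sum.inr k) = 0 := by
    by_contra hne
    push Not at hne
    obtain ⟨y0, hy0⟩ := hne
    have h5 : A ≤ 𝔼 y, if ψ y * (s y (Sum.inl 4) + s y (Sum.inl 3)) +
      ψ' y * s y (Sum.inl 0) + ∑ k, Z k y * s y (Sum.inr k) = 0 then (0 : ℝ) else 1 := by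
      refine hdist _ (fun i hi y => ?_) (fun h0 => hy0 (congrFun h0 y0))
      refine Low.add (Low.add ?_ ?_) ?_
      · exact Low.mono (Low.mul (hψ i hi y) (Low.add (hsum i hi y _) (hsum i hi y _))) he
      · exact Low.mono (Low.mul (hψ' i hi y) (hsum i hi y _)) he
      · exact Low.sum _ fun k _ => Low.mono (Low.mul (hZ k i hi y) (hsum i hi y _)) he
    have h6 : A / 2 ≤ v2 φ ψ ψ' Z s := by rw [v2_eq φ hφ]; linarith
    linarith
  obtain ⟨y, hy1, hyZ, hy2⟩ := hun fun k x => s (fun _ => x) (fc k)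
  have hdep : ∀ k : Fin 3, s y (fc k) = s (fun _ => y k) (fc k) := by
    intro k
    have h5 := hfk k y (fun _ => y k)
    have h6 : mix k y (fun _ => y k) = fun _ => y k := by
      funext l
      simp only [mix]
      split_ifs with h
      · rw [h]
      · rfl
    rw [h6, ← CharTwo.sub_eq_add, sub_eq_zero] at h5
    exact h5
  apply hy2
  have h5 := hG y
  rw [hy1, hH y, hone y] at h5
  simp only [hyZ, zero_mul, Finset.sum_const_zero, add_zero, one_mul, mul_one] at h5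
  have h6 : s y (Sum.inl 1) = s (fun _ => y 0) (fc 0) := hdep 0
  have h7 : s y (Sum.inl 2) = s (fun _ => y 1) (fc 1) := hdep 1
  have h8 : s y (Sum.inl 3) = s (fun _ => y 2) (fc 2) := hdep 2
  rw [← h6, ← h7, ← h8]
  rw [← CharTwo.sub_eq_add (_ + _) (ψ' y), sub_eq_zero] at h5
  exact h5

/-- **Codeword-level gap.** -/
theorem code_gap (φ : F →+ ZMod 2) (hφ : φ ≠ 0) {q : ℕ} (hq : Fintype.card F = q) (r : ι → V)
    {lam κ : ℝ} (h0 : 0 ≤ lam) (hb : CharBd (dir3 r) lam) (I : Finset (Fin 3 → ι))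
    (hκ : (1 - κ) * Fintype.card (Fin 3 → ι) ≤ #I) (hκ2 : 2 * κ < 1) {d e m : ℕ}
    (hd : 2 * d ≤ m) (he : e + d ≤ m) (hm : m + 1 ≤ q)
    (s : (Fin 3 → V) → Fin 5 ⊕ K → F)
    (hs : ∀ i ∈ I, ∀ y, Low d fun u : F => s (y + u • dir3 r i))
    (ψ ψ' : (Fin 3 → V) → F) (Z : K → (Fin 3 → V) → F)
    (hψ : ∀ i ∈ I, ∀ y, Low e fun u : F => ψ (y + u • dir3 r i))
    (hψ' : ∀ i ∈ I, ∀ y, Low e fun u : F => ψ' (y + u • dir3 r i))
    (hZ : ∀ k, ∀ i ∈ I, ∀ y, Low e fun u : F => Z k (y + u • dir3 r i))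
    (hun : ∀ g : Fin 3 → V → F, ∃ y : Fin 3 → V, ψ y = 1 ∧ (∀ k, Z k y = 0) ∧
      g 0 (y 0) * g 1 (y 1) + g 2 (y 2) ≠ ψ' y)
    {w1 w2 w3 w4 : ℝ} (h1 : 0 ≤ w1) (h2 : w1 ≤ w2) (h3 : w1 ≤ w3) (h4 : 2 * w1 ≤ w4) :
    w1 * ((1 - 1 / (q : ℝ)) / 2) +
      w1 * (((1 - (m : ℝ) / (q - 1)) * (1 - 2 * κ) - lam) * (((q : ℝ) - 1) / (2 * q ^ 2))) ≤
    w1 * v1 φ s + w2 * v2 φ ψ ψ' Z s + w3 * (v3 φ s 0 + v3 φ s 1 + v3 φ s 2) + w4 * v4 φ s := by
  classical
  have hor := sound_or φ hφ hq r h0 hb I hκ hκ2 hd he hm s hs ψ ψ' Z hψ hψ' hZ hun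
  have hq2 : 2 ≤ q := by
    rw [← hq]; exact Fintype.one_lt_card
  have hqR : (2 : ℝ) ≤ q := by exact_mod_cast hq2
  set A : ℝ := (1 - (m : ℝ) / (q - 1)) * (1 - 2 * κ) - lam with hA
  set c : ℝ := ((q : ℝ) - 1) / (2 * q ^ 2) with hc
  have hc0 : 0 < c := by rw [hc]; apply div_pos <;> nlinarith
  have hc1 : c ≤ 1 / 2 := by
    rw [hc, div_le_div_iff₀ (by positivity) (by norm_num)]; nlinarith
  have hn1 := v1_nonneg φ s
  have hn2 := v2_nonneg φ ψ ψ' Z s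
  have hn30 := v3_nonneg φ s 0
  have hn31 := v3_nonneg φ s 1
  have hn32 := v3_nonneg φ s 2
  have hn4 := v4_nonneg φ s
  have hqF : (Fintype.card F : ℝ) = q := by exact_mod_cast congrArg (Nat.cast (R := ℝ)) hq
  have hcc : (1 / (q : ℝ) - 1 / (q : ℝ) ^ 2) / 2 = c := by
    rw [hc]; field_simp
  rw [hcc] at hor
  set base : ℝ := (1 - 1 / (q : ℝ)) / 2 with hbase
  have hbase1 : 2 * base ≤ 1 := by
    rw [hbase]
    have : 0 ≤ 1 / (q : ℝ) := by positivity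
    linarith
  have hp2 : 0 ≤ w2 * v2 φ ψ ψ' Z s := mul_nonneg (h1.trans h2) hn2
  have hp3 : 0 ≤ w3 * (v3 φ s 0 + v3 φ s 1 + v3 φ s 2) :=
    mul_nonneg (h1.trans h3) (by linarith)
  have hp4 : 0 ≤ w4 * v4 φ s := mul_nonneg (by linarith) hn4
  have hge := v1_ge φ hφ s
  rw [hqF, ← hbase] at hge
  -- `T1` and `T4` together
  have htot0 : w1 * base + w1 * v4 φ s ≤ w1 * v1 φ s + w4 * v4 φ s := by
    have h5 : w1 * (base * (1 - 2 * v4 φ s)) ≤ w1 * v1 φ s := mul_le_mul_of_nonneg_left hge h1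
    have h6 : 2 * w1 * v4 φ s ≤ w4 * v4 φ s := mul_le_mul_of_nonneg_right h4 hn4
    have h7 : w1 * v4 φ s * (2 * base) ≤ w1 * v4 φ s * 1 :=
      mul_le_mul_of_nonneg_left hbase1 (mul_nonneg h1 hn4)
    have h8 : w1 * (base * (1 - 2 * v4 φ s)) = w1 * base - w1 * v4 φ s * (2 * base) := by ring
    linarith
  have hw1v4 : 0 ≤ w1 * v4 φ s := mul_nonneg h1 hn4
  rcases le_or_gt A 0 with hAn | hApos
  · have : w1 * (A * c) ≤ 0 :=
      mul_nonpos_of_nonneg_of_nonpos h1 (mul_nonpos_of_nonpos_of_nonneg hAn hc0.le)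
    linarith
  have hAc2 : w1 * (A * c) ≤ w1 * (A / 2) := by
    refine mul_le_mul_of_nonneg_left ?_ h1
    have := mul_le_mul_of_nonneg_left hc1 hApos.le
    linarith
  rcases hor with h | h | ⟨k, h⟩ | h
  · have := mul_le_mul_of_nonneg_left h h1
    linarith
  · have := (mul_le_mul_of_nonneg_left h h1).trans (mul_le_mul_of_nonneg_right h2 hn2)
    linarith
  · have h5 : v3 φ s k ≤ v3 φ s 0 + v3 φ s 1 + v3 φ s 2 := by
      fin_cases k <;> simp only [Fin.zero_eta, Fin.mk_one, Fin.reduceFinMk] <;> linarith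
    have h6 := (mul_le_mul_of_nonneg_left (h.trans h5) h1).trans
      (mul_le_mul_of_nonneg_right h3 (by linarith))
    linarith
  · have h5 := mul_le_mul_of_nonneg_left h h1
    rw [mul_add, mul_comm c A] at h5
    linarith

end

end Vale.Agent.P318.H764
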