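import Vale.Agent.P318.S.Mid
import Vale.Agent.P318.H591.Dirs
import Vale.Agent.P318.H764.Gap

/-!
# `code_sound`: soundness for codewords, in the form of the middle layer
-/

namespace Vale.Agent.P318.H764

open Finset Vale.Agent.P318.S
open scoped BigOperators

section bridge

variable {F V Z K : Type*} [Field F] [Fintype F] [AddCommGroup V] [Fintype V] [Fintype K]
  [DecidableEq K]

omit [Fintype F] [AddCommGroup V] [Fintype V] in
theorem sum_cst1 (s : (Fin 3 → V) → Comp K → F) (y : Fin 3 → V) (a b : Fin 2 → F) :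
    ∑ j, cst1 a b j * s y j = a 0 * b 0 * s y (Sum.inl 0) + a 1 * b 0 * s y (Sum.inl 1) +
      a 0 * b 1 * s y (Sum.inl 2) + a 1 * b 1 * s y (Sum.inl 4) := by
  have h : ∀ j : Comp K, cst1 a b j * s y j =
      (if j = (Sum.inl 0 : Comp K) then a 0 * b 0 * s y j else 0) +
      (if j = (Sum.inl 1 : Comp K) then a 1 * b 0 * s y j else 0) +
      (if j = (Sum.inl 2 : Comp K) then a 0 * b 1 * s y j else 0) +
      (if j = (Sum.inl 4 : Comp K) then a 1 * b 1 * s y j else 0) := by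
    intro j
    have e0 : (cOne : Comp K) = Sum.inl 0 := rfl
    have e1 : (cF 0 : Comp K) = Sum.inl 1 := rfl
    have e2 : (cF 1 : Comp K) = Sum.inl 2 := rfl
    have e4 : (cH : Comp K) = Sum.inl 4 := rfl
    simp only [cst1, e0, e1, e2, e4, add_mul, ite_mul, zero_mul]
  simp only [h, Finset.sum_add_distrib, Finset.sum_ite_eq', Finset.mem_univ, if_true]

theorem U1_eq (φ : F →+ ZMod 2) (s : (Fin 3 → V) → Comp K → F) : U1 φ s = v1 φ s := by
  simp only [U1, v1, sum_cst1]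

omit [Fintype F] [AddCommGroup V] [Fintype V] in
theorem sum_cst2 (del : Z → V → F) (zf : K → V → F)
    (sys : Finset (Z × Z × Z)) (bet : Z × Z × Z → F) (s : (Fin 3 → V) → Comp K → F)
    (y : Fin 3 → V) (γ : F) :
    ∑ j, cst2 del zf sys bet γ y j * s y j =
      γ * (psi del sys y * (s y (Sum.inl 4) + s y (Sum.inl 3)) +
        psi1 del sys bet y * s y (Sum.inl 0) + ∑ k : Fin 3 × K, zf k.2 (y k.1) * s y (Sum.inr k)) := by
  rw [Fintype.sum_sum_type]
  have h1 : ∑ j : Fin 5, cst2 del zf sys bet γ y (Sum.inl j) * s y (Sum.inl j) =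
      γ * (psi del sys y * (s y (Sum.inl 4) + s y (Sum.inl 3)) +
        psi1 del sys bet y * s y (Sum.inl 0)) := by
    simp only [cst2, Fin.sum_univ_five]
    simp only [Fin.isValue, Fin.reduceEq, if_true, if_false, zero_add, add_zero, mul_zero,
      zero_mul]
    ring
  have h2 : ∑ p : Fin 3 × K, cst2 del zf sys bet γ y (Sum.inr p) * s y (Sum.inr p) =
      γ * ∑ k : Fin 3 × K, zf k.2 (y k.1) * s y (Sum.inr k) := by
    rw [Finset.mul_sum]
    refine Finset.sum_congr rfl fun p _ => ?_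
    simp only [cst2]
    ring
  rw [h1, h2]
  ring

theorem U2_eq (φ : F →+ ZMod 2) (del : Z → V → F) (zf : K → V → F)
    (sys : Finset (Z × Z × Z)) (bet : Z × Z × Z → F) (s : (Fin 3 → V) → Comp K → F) :
    U2 φ del zf sys bet s =
      v2 φ (psi del sys) (psi1 del sys bet) (fun (k : Fin 3 × K) y => zf k.2 (y k.1)) s := by
  simp only [U2, v2, sum_cst2]

omit [Fintype F] [AddCommGroup V] [Fintype V] in
theorem sum_cstE (s : Comp K → F) (γ : F) (j0 : Comp K) :
    ∑ j, cstE γ j0 j * s j = γ * s j0 := by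
  rw [Finset.sum_eq_single j0]
  · simp [cstE]
  · intro j _ hj
    simp [cstE, Pi.single_apply, hj]
  · simp

theorem U4_eq (φ : F →+ ZMod 2) (s : (Fin 3 → V) → Comp K → F) : U4 φ s = v4 φ s := by
  simp only [U4, v4, sum_cstE]
  rfl

theorem U3_eq (φ : F →+ ZMod 2) (b : Fin 3) (s : (Fin 3 → V) → Comp K → F) :
    U3 φ b s = v3 φ s b := by
  simp only [U3, v3, sum_cstE]
  refine expect_congr rfl fun y _ => ?_
  have h1 : ∀ x : Fin 3 → V, sh b y x = mix b y (x + y) := by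
    intro x
    funext l
    by_cases hl : l = b
    · subst hl
      simp [sh, mix]
    · simp [sh, mix, hl, add_comm]
  simp only [h1]
  exact expect_shift y (fun y' => 𝔼 γ : F, ind (φ (γ * s y (cF b)) + φ (γ * s (mix b y y') (cF b))))

end bridge

section main

variable {F V ι Z K : Type*} [Field F] [Fintype F] [DecidableEq F] [CharP F 2]
  [AddCommGroup V] [Module F V] [Fintype V] [DecidableEq V] [Fintype ι] [Nonempty ι]
  [Fintype Z] [DecidableEq Z] [Fintype K] [DecidableEq K]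

omit [Fintype F] [DecidableEq F] [CharP F 2] [Fintype V] [DecidableEq V] [Fintype ι] [Nonempty ι]
  [Fintype Z] in
theorem del3_low {t d : ℕ} {del : Z → V → F} {r : ι → V}
    (hd : ∀ z i v, Low t fun u : F => del z (v + u • r i)) (ht : 3 * t ≤ d) (e : Z × Z × Z)
    (i : Fin 3 → ι) (y : Fin 3 → V) :
    Low d fun u : F => del3 del e (y + u • S.dir3 r i) := by
  have h := Low.mul (Low.mul (hd e.1 (i 0) (y 0)) (hd e.2.1 (i 1) (y 1)))
    (hd e.2.2 (i 2) (y 2))
  exact Low.mono h (by omega)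

/-- Soundness for codewords.  `I` is the set of the good directions, `κ` the fraction of the
removed ones. -/
theorem code_sound (φ : F →+ ZMod 2) (hφ : φ ≠ 0) {q d t : ℕ} (hq : Fintype.card F = q)
    {lam : ℝ} {pt : Z → V} {del : Z → V → F} {zf : K → V → F} {r : ι → V}
    (hG : GeoOK t lam pt del zf r) (ht : 3 * t ≤ d) (hd2 : 2 ≤ d) (hd : 8 * d + 1 ≤ q)
    (hlam : lam ≤ 1 / 16) (sys : Finset (Z × Z × Z)) (bet : Z × Z × Z → F)
    (hno : ¬ Solv sys bet) (s : (Fin 3 → V) → Comp K → F)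
    (I : Finset (Fin 3 → ι)) (hI : I.Nonempty)
    {κ : ℝ} (hκ : (1 - κ) * Fintype.card (Fin 3 → ι) ≤ #I) (hκ1 : κ ≤ 1 / 8)
    (hs : ∀ i ∈ I, ∀ y, Low d fun u : F => s (y + u • S.dir3 r i)) :
    1 / 4 ≤ U4 φ s ∨ 1 / 4 ≤ U2 φ del zf sys bet s ∨ (∃ b, 1 / 8 ≤ U3 φ b s) ∨
      (1 / 2 : ℝ) * (1 - 1 / q) + 1 / 4 * (1 / q - 1 / (q : ℝ) ^ 2) ≤ U1 φ s := by
  classical
  -- `lam` is not negative
  have hV : Nontrivial V := ⟨⟨r (Classical.arbitrary ι), 0, hG.ne_zero _⟩⟩
  have hlam0 : 0 ≤ lam := CharBd.nonneg (two_torsion (F := F)) hG.char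
  have hb : CharBd (S.dir3 r) lam :=
    H591.charBd_pi (fun _ : Fin 3 => r) hlam0 fun _ => hG.char
  have hun : ∀ g : Fin 3 → V → F, ∃ y : Fin 3 → V, psi del sys y = 1 ∧
      (∀ k : Fin 3 × K, zf k.2 (y k.1) = 0) ∧
      g 0 (y 0) * g 1 (y 1) + g 2 (y 2) ≠ psi1 del sys bet y := by
    intro g
    have h1 : ¬ ∀ e ∈ sys, g 0 (pt e.1) * g 1 (pt e.2.1) + g 2 (pt e.2.2) = bet e :=
      fun h => hno ⟨fun k z => g k (pt z), h⟩
    push Not at h1
    obtain ⟨e, he, hne⟩ := h1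
    have hdel : ∀ e' : Z × Z × Z, del3 del e' ![pt e.1, pt e.2.1, pt e.2.2] =
        if e' = e then 1 else 0 := by
      intro e'
      have : del3 del e' ![pt e.1, pt e.2.1, pt e.2.2] =
          del e'.1 (pt e.1) * del e'.2.1 (pt e.2.1) * del e'.2.2 (pt e.2.2) := rfl
      rw [this, hG.del_pt, hG.del_pt, hG.del_pt]
      obtain ⟨a, b, c⟩ := e'
      obtain ⟨a', b', c'⟩ := e
      by_cases ha : a = a' <;> by_cases hb' : b = b' <;> by_cases hc : c = c' <;>
        simp [ha, hb', hc]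
    refine ⟨![pt e.1, pt e.2.1, pt e.2.2], ?_, ?_, ?_⟩
    · simp [psi, hdel, he]
    · rintro ⟨k, k'⟩
      fin_cases k
      · exact hG.zf_pt _ _
      · exact hG.zf_pt _ _
      · exact hG.zf_pt _ _
    · have h2 : psi1 del sys bet ![pt e.1, pt e.2.1, pt e.2.2] = bet e := by
        simp [psi1, hdel, he]
      rw [h2]
      exact hne
  have hψ : ∀ i ∈ I, ∀ y, Low d fun u : F => psi del sys (y + u • S.dir3 r i) :=
    fun i _ y => Low.sum sys fun e _ => del3_low hG.del_low ht e i y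
  have hψ' : ∀ i ∈ I, ∀ y, Low d fun u : F => psi1 del sys bet (y + u • S.dir3 r i) :=
    fun i _ y => Low.sum sys fun e _ => by
      have h := Low.mul (Low.const 0 (bet e)) (del3_low hG.del_low ht e i y)
      exact Low.mono h (by omega)
  have hZ : ∀ k : Fin 3 × K, ∀ i ∈ I, ∀ y,
      Low d fun u : F => (fun (k : Fin 3 × K) (y : Fin 3 → V) => zf k.2 (y k.1)) k
        (y + u • S.dir3 r i) := by
    intro k i _ y
    exact Low.mono (hG.zf_low k.2 (i k.1) (y k.1)) hd2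
  have hqR : (q : ℝ) ≥ 8 * d + 1 := by exact_mod_cast hd
  have hdR : (2 : ℝ) ≤ d := by exact_mod_cast hd2
  have key := sound_or φ hφ hq r hlam0 hb I hκ (by linarith) (d := d) (e := d) (m := 2 * d)
    le_rfl (by omega) (by omega) s hs (psi del sys) (psi1 del sys bet)
    (fun (k : Fin 3 × K) y => zf k.2 (y k.1)) hψ hψ' hZ hun
  have hA : (1 : ℝ) / 2 ≤ (1 - ((2 * d : ℕ) : ℝ) / (q - 1)) * (1 - 2 * κ) - lam := by
    have h1 : ((2 * d : ℕ) : ℝ) / (q - 1) ≤ 1 / 4 := by
      rw [div_le_iff₀ (by linarith)]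
      push_cast
      linarith
    have h2 : (3 : ℝ) / 4 ≤ 1 - ((2 * d : ℕ) : ℝ) / (q - 1) := by linarith
    have h3 : (3 : ℝ) / 4 ≤ 1 - 2 * κ := by linarith
    have h4 : (3 : ℝ) / 4 * (3 / 4) ≤ (1 - ((2 * d : ℕ) : ℝ) / (q - 1)) * (1 - 2 * κ) :=
      mul_le_mul h2 h3 (by norm_num) (by linarith)
    linarith
  have hcc : 0 ≤ (1 / (q : ℝ) - 1 / (q : ℝ) ^ 2) := by
    have : 1 / (q : ℝ) ^ 2 ≤ 1 / (q : ℝ) := by
      apply one_div_le_one_div_of_le (by linarith)
      nlinarith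
    linarith
  rw [U4_eq, U2_eq, U1_eq]
  rcases key with h | h | ⟨k, h⟩ | h
  · left; linarith
  · right; left; linarith
  · right; right; left
    exact ⟨k, by rw [U3_eq]; linarith⟩
  · right; right; right
    have := mul_le_mul_of_nonneg_left hA hcc
    linarith

end main

end Vale.Agent.P318.H764
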