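import Vale.Agent.P318.S.Defs

/-!
# Calculus of `Low`
-/

namespace Vale.Agent.P318.H764

open Finset Vale.Agent.P318.S
open scoped BigOperators

section

variable {F : Type*} [Field F]

theorem low_iff_poly {d : ℕ} {h : F → F} :
    Low d h ↔ ∃ P : Polynomial F, P.natDegree ≤ d ∧ ∀ u, h u = P.eval u := by
  constructor
  · rintro ⟨p, hp⟩
    refine ⟨∑ j : Fin (d + 1), Polynomial.C (p j) * Polynomial.X ^ (j : ℕ), ?_, fun u => ?_⟩
    · refine Polynomial.natDegree_sum_le_of_forall_le _ _ fun j _ => ?_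
      exact (Polynomial.natDegree_C_mul_X_pow_le _ _).trans (Nat.lt_succ_iff.1 j.2)
    · rw [hp u, Polynomial.eval_finsetSum]
      refine Finset.sum_congr rfl fun j _ => ?_
      rw [Polynomial.eval_mul, Polynomial.eval_C, Polynomial.eval_pow, Polynomial.eval_X,
        smul_eq_mul, mul_comm]
  · rintro ⟨P, hP, hu⟩
    refine ⟨fun j => P.coeff j, fun u => ?_⟩
    rw [hu u, Polynomial.eval_eq_sum_range' (n := d + 1) (Nat.lt_succ_iff.2 hP) u, crv,
      ← Fin.sum_univ_eq_sum_range (fun j => P.coeff j * u ^ j) (d + 1)]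
    refine Finset.sum_congr rfl fun j _ => ?_
    rw [smul_eq_mul, mul_comm]

theorem Low.mono {d e : ℕ} {h : F → F} (hh : Low d h) (hde : d ≤ e) : Low e h := by
  rw [low_iff_poly] at hh ⊢
  obtain ⟨P, h1, h2⟩ := hh
  exact ⟨P, h1.trans hde, h2⟩

theorem Low.add {d : ℕ} {h g : F → F} (hh : Low d h) (hg : Low d g) :
    Low d fun u => h u + g u := by
  rw [low_iff_poly] at hh hg ⊢
  obtain ⟨P, h1, h2⟩ := hh
  obtain ⟨Q, h3, h4⟩ := hg
  exact ⟨P + Q, (Polynomial.natDegree_add_le P Q).trans (max_le h1 h3), fun u => by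
    rw [Polynomial.eval_add, h2, h4]⟩

theorem Low.mul {d e : ℕ} {h g : F → F} (hh : Low d h) (hg : Low e g) :
    Low (d + e) fun u => h u * g u := by
  rw [low_iff_poly] at hh hg ⊢
  obtain ⟨P, h1, h2⟩ := hh
  obtain ⟨Q, h3, h4⟩ := hg
  exact ⟨P * Q, Polynomial.natDegree_mul_le.trans (add_le_add h1 h3), fun u => by
    rw [Polynomial.eval_mul, h2, h4]⟩

theorem Low.const (d : ℕ) (c : F) : Low d fun _ : F => c := by
  rw [low_iff_poly]
  exact ⟨Polynomial.C c, by simp, fun u => by simp⟩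

theorem Low.sum {d : ℕ} {κ : Type*} (t : Finset κ) {h : κ → F → F}
    (hh : ∀ k ∈ t, Low d (h k)) : Low d fun u => ∑ k ∈ t, h k u := by
  classical
  induction t using Finset.induction_on with
  | empty => simpa using Low.const d (0 : F)
  | insert a t ha ih =>
    have h1 := Low.add (hh a (Finset.mem_insert_self a t))
      (ih fun k hk => hh k (Finset.mem_insert_of_mem hk))
    simpa [Finset.sum_insert ha] using h1

theorem Low.comp {d : ℕ} {ρ : Type*} {h : F → ρ → F} (hh : Low d h) (j : ρ) :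
    Low d fun u => h u j := by
  obtain ⟨p, hp⟩ := hh
  refine ⟨fun i => p i j, fun u => ?_⟩
  show h u j = _
  rw [hp u]
  simp [crv, Finset.sum_apply, Pi.smul_apply]

end

end Vale.Agent.P318.H764
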