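import Vale.Agent.P318.H764.Dist
import Vale.Agent.P318.H764.LowCalc
import Vale.Agent.P318.H764.SoundDefs
import Vale.Agent.P318.H866.Noise

/-!
# Codeword-level soundness
-/

namespace Vale.Agent.P318.H764

open Finset Vale.Agent.P318.S
open scoped BigOperators

section basic

variable {F : Type*} [Field F] [Fintype F]

theorem ind_nonneg (a : ZMod 2) : 0 ≤ ind a := by unfold ind; split_ifs <;> norm_num

theorem ind_le_one (a : ZMod 2) : ind a ≤ 1 := by unfold ind; split_ifs <;> norm_num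

@[simp] theorem ind_zero : ind 0 = 0 := by simp [ind]

theorem ind_eq_sg (a : ZMod 2) : ind a = (1 - H866.sg a) / 2 := by
  unfold ind H866.sg
  split_ifs <;> norm_num

theorem sum_sg_mul (φ : F →+ ZMod 2) (hφ : φ ≠ 0) {x : F} (hx : x ≠ 0) :
    ∑ γ : F, H866.sg (φ (γ * x)) = 0 := by
  let χ : F →+ ZMod 2 := φ.comp (AddMonoidHom.mulRight x)
  have hχ : χ ≠ 0 := by
    intro h0
    refine hφ (AddMonoidHom.ext fun g => ?_)
    have h1 := DFunLike.congr_fun h0 (g / x)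
    simpa [χ, div_mul_cancel₀ _ hx] using h1
  exact H866.sum_sg_eq_zero χ hχ

/-- Half. -/
theorem expect_ind_mul [DecidableEq F] (φ : F →+ ZMod 2) (hφ : φ ≠ 0) (x : F) :
    𝔼 γ : F, ind (φ (γ * x)) = if x = 0 then (0 : ℝ) else 1 / 2 := by
  have hF : (0 : ℝ) < Fintype.card F := by exact_mod_cast Fintype.card_pos
  split_ifs with hx
  · subst hx
    simp
  · rw [Fintype.expect_eq_sum_div_card]
    simp_rw [ind_eq_sg]
    rw [← Finset.sum_div, Finset.sum_sub_distrib, sum_sg_mul φ hφ hx]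
    simp
    field_simp

variable [DecidableEq F]

theorem expect_half {Ω : Type*} [Fintype Ω] (φ : F →+ ZMod 2) (hφ : φ ≠ 0) (g : Ω → F) :
    𝔼 ω, 𝔼 γ : F, ind (φ (γ * g ω)) = (1 / 2) * 𝔼 ω, (if g ω = 0 then (0 : ℝ) else 1) := by
  rw [Finset.mul_expect]
  refine Finset.expect_congr rfl fun ω _ => ?_
  rw [expect_ind_mul φ hφ]
  split_ifs <;> simp

theorem expect_noise (φ : F →+ ZMod 2) (hφ : φ ≠ 0) (f g H : F) :
    𝔼 a : Fin 2 → F, 𝔼 b : Fin 2 → F,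
      ind (φ (a 0 * b 0 * 1 + a 1 * b 0 * f + a 0 * b 1 * g + a 1 * b 1 * H)) =
    if H = f * g then (1 - 1 / (Fintype.card F : ℝ)) / 2
      else (1 - 1 / (Fintype.card F : ℝ) ^ 2) / 2 := by
  have hF : (0 : ℝ) < Fintype.card F := by exact_mod_cast Fintype.card_pos
  rw [← H866.noise_two φ hφ f g H, Fintype.expect_eq_sum_div_card]
  simp_rw [Fintype.expect_eq_sum_div_card]
  rw [← Finset.sum_div, div_div]
  congr 1
  · refine Finset.sum_congr rfl fun a _ => Finset.sum_congr rfl fun b _ => ?_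
    have h1 : a 0 * b 0 * 1 + a 1 * b 0 * f + a 0 * b 1 * g + a 1 * b 1 * H =
      a 0 * b 0 + a 0 * b 1 * g + a 1 * b 0 * f + a 1 * b 1 * H := by ring
    rw [h1, H866.ind_eq, ind_eq_sg]
  · simp
    ring

theorem base_le_noise {f g H : F} :
    (1 - 1 / (Fintype.card F : ℝ)) / 2 ≤ if H = f * g then (1 - 1 / (Fintype.card F : ℝ)) / 2
      else (1 - 1 / (Fintype.card F : ℝ) ^ 2) / 2 := by
  have hF : (1 : ℝ) ≤ Fintype.card F := by exact_mod_cast Fintype.card_pos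
  split_ifs
  · exact le_rfl
  · have : 1 / (Fintype.card F : ℝ) ^ 2 ≤ 1 / (Fintype.card F : ℝ) := by
      apply one_div_le_one_div_of_le (by linarith)
      nlinarith
    linarith

end basic

section char2

variable {F V ι K : Type*} [Field F] [Fintype F] [DecidableEq F] [CharP F 2] [AddCommGroup V]
  [Module F V] [Fintype V] [Fintype K]

theorem v4_eq (φ : F →+ ZMod 2) (hφ : φ ≠ 0) (s : (Fin 3 → V) → Fin 5 ⊕ K → F) :
    v4 φ s = (1 / 2) * 𝔼 y, (if s y (Sum.inl 0) + 1 = 0 then (0 : ℝ) else 1) := by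
  rw [← expect_half φ hφ, v4]
  refine Finset.expect_congr rfl fun y _ => Finset.expect_congr rfl fun γ _ => ?_
  rw [← map_add]
  congr 2
  ring

theorem v3_eq (φ : F →+ ZMod 2) (hφ : φ ≠ 0) (s : (Fin 3 → V) → Fin 5 ⊕ K → F) (k : Fin 3) :
    v3 φ s k = (1 / 2) * 𝔼 p : (Fin 3 → V) × (Fin 3 → V),
      (if s p.1 (fc k) + s (mix k p.1 p.2) (fc k) = 0 then (0 : ℝ) else 1) := by
  rw [← expect_half φ hφ, v3]
  rw [← Finset.univ_product_univ, Finset.expect_product]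
  refine Finset.expect_congr rfl fun y _ => Finset.expect_congr rfl fun y' _ =>
    Finset.expect_congr rfl fun γ _ => ?_
  rw [← map_add]
  congr 2
  ring

theorem v2_eq (φ : F →+ ZMod 2) (hφ : φ ≠ 0) (ψ ψ' : (Fin 3 → V) → F) (Z : K → (Fin 3 → V) → F)
    (s : (Fin 3 → V) → Fin 5 ⊕ K → F) :
    v2 φ ψ ψ' Z s = (1 / 2) * 𝔼 y, (if ψ y * (s y (Sum.inl 4) + s y (Sum.inl 3)) +
      ψ' y * s y (Sum.inl 0) + ∑ k, Z k y * s y (Sum.inr k) = 0 then (0 : ℝ) else 1) := by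
  rw [← expect_half φ hφ, v2]

theorem v4_nonneg (φ : F →+ ZMod 2) (s : (Fin 3 → V) → Fin 5 ⊕ K → F) : 0 ≤ v4 φ s :=
  Finset.expect_nonneg fun _ _ => Finset.expect_nonneg fun _ _ => ind_nonneg _

theorem v3_nonneg (φ : F →+ ZMod 2) (s : (Fin 3 → V) → Fin 5 ⊕ K → F) (k : Fin 3) :
    0 ≤ v3 φ s k :=
  Finset.expect_nonneg fun _ _ => Finset.expect_nonneg fun _ _ =>
    Finset.expect_nonneg fun _ _ => ind_nonneg _

theorem v1_nonneg (φ : F →+ ZMod 2) (s : (Fin 3 → V) → Fin 5 ⊕ K → F) : 0 ≤ v1 φ s :=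
  Finset.expect_nonneg fun _ _ => Finset.expect_nonneg fun _ _ =>
    Finset.expect_nonneg fun _ _ => ind_nonneg _

theorem v2_nonneg (φ : F →+ ZMod 2) (ψ ψ' : (Fin 3 → V) → F) (Z : K → (Fin 3 → V) → F)
    (s : (Fin 3 → V) → Fin 5 ⊕ K → F) : 0 ≤ v2 φ ψ ψ' Z s :=
  Finset.expect_nonneg fun _ _ => Finset.expect_nonneg fun _ _ => ind_nonneg _

/-- T1 and T4 together: `v1 ≥ base · Pr[component 1 is 1]`. -/
theorem v1_ge (φ : F →+ ZMod 2) (hφ : φ ≠ 0) (s : (Fin 3 → V) → Fin 5 ⊕ K → F) :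
    (1 - 1 / (Fintype.card F : ℝ)) / 2 * (1 - 2 * v4 φ s) ≤ v1 φ s := by
  have h1 : (1 - 1 / (Fintype.card F : ℝ)) / 2 * (1 - 2 * v4 φ s) =
      𝔼 y : Fin 3 → V, (1 - 1 / (Fintype.card F : ℝ)) / 2 *
        (1 - if s y (Sum.inl 0) + 1 = 0 then (0 : ℝ) else 1) := by
    rw [v4_eq φ hφ, ← Finset.mul_expect, Finset.expect_sub_distrib]
    rw [Finset.expect_const (Finset.univ_nonempty) (1 : ℝ)]
    ring
  rw [h1, v1]
  refine Finset.expect_le_expect fun y _ => ?_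
  by_cases hy : s y (Sum.inl 0) + 1 = 0
  · have hy1 : s y (Sum.inl 0) = 1 := by
      rw [← sub_eq_zero, CharTwo.sub_eq_add]; exact hy
    rw [if_pos hy, hy1, expect_noise φ hφ]
    simpa using base_le_noise
  · rw [if_neg hy]
    simp only [sub_self, mul_zero]
    exact Finset.expect_nonneg fun _ _ => Finset.expect_nonneg fun _ _ => ind_nonneg _

/-- T1 when the component 1 is right. -/
theorem v1_eq (φ : F →+ ZMod 2) (hφ : φ ≠ 0) (s : (Fin 3 → V) → Fin 5 ⊕ K → F)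
    (h0 : ∀ y, s y (Sum.inl 0) = 1) :
    v1 φ s = (1 - 1 / (Fintype.card F : ℝ)) / 2 +
      (1 / (Fintype.card F : ℝ) - 1 / (Fintype.card F : ℝ) ^ 2) / 2 *
        𝔼 y : Fin 3 → V, (if s y (Sum.inl 4) + s y (Sum.inl 1) * s y (Sum.inl 2) = 0
          then (0 : ℝ) else 1) := by
  have h2 : ∀ y : Fin 3 → V, 𝔼 a : Fin 2 → F, 𝔼 b : Fin 2 → F,
      ind (φ (a 0 * b 0 * s y (Sum.inl 0) + a 1 * b 0 * s y (Sum.inl 1) +
        a 0 * b 1 * s y (Sum.inl 2) + a 1 * b 1 * s y (Sum.inl 4))) =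
      (1 - 1 / (Fintype.card F : ℝ)) / 2 +
      (1 / (Fintype.card F : ℝ) - 1 / (Fintype.card F : ℝ) ^ 2) / 2 *
        (if s y (Sum.inl 4) + s y (Sum.inl 1) * s y (Sum.inl 2) = 0 then (0 : ℝ) else 1) := by
    intro y
    rw [h0 y, expect_noise φ hφ]
    have h3 : s y (Sum.inl 4) = s y (Sum.inl 1) * s y (Sum.inl 2) ↔
        s y (Sum.inl 4) + s y (Sum.inl 1) * s y (Sum.inl 2) = 0 := by
      rw [← CharTwo.sub_eq_add, sub_eq_zero]
    by_cases h : s y (Sum.inl 4) = s y (Sum.inl 1) * s y (Sum.inl 2)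
    · rw [if_pos h, if_pos (h3.1 h)]; ring
    · rw [if_neg h, if_neg (fun hh => h (h3.2 hh))]; ring
  rw [v1, Finset.expect_congr rfl fun y _ => h2 y, Finset.expect_add_distrib,
    Finset.expect_const (Finset.univ_nonempty), Finset.mul_expect]

end char2

end Vale.Agent.P318.H764
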